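import Mathlib

/-!
# P356: gapped Hamiltonians on the square and entanglement entropy
-/

open scoped Matrix

noncomputable section

namespace Vale.Agent.P356

variable {L q : ℕ}

/-- The sites of the square of side `L`. -/
abbrev Site (L : ℕ) : Type := Fin L × Fin L

/-- The configurations, indexing the product basis of the tensor product of `q`-level systems. -/
abbrev Config (L q : ℕ) : Type := Site L → Fin q

/-- The configurations of a region. -/
abbrev RConfig (X : Finset (Site L)) (q : ℕ) : Type := X → Fin q

/-- The ℓ¹ distance. -/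
def l1 (x y : Site L) : ℕ := Nat.dist x.1 y.1 + Nat.dist x.2 y.2

/-- The restriction of a configuration to a region. -/
def res (X : Finset (Site L)) (σ : Config L q) : RConfig X q := fun v => σ v

/-- The configuration equal to `a` on `X` and to `c` elsewhere. -/
def glue (X : Finset (Site L)) (a : RConfig X q) (c : {v // v ∉ X} → Fin q) : Config L q :=
  fun v => if h : v ∈ X then a ⟨v, h⟩ else c ⟨v, h⟩

/-- The operator acting as `m` on the factors in `X` and as the identity elsewhere. -/
def lift (X : Finset (Site L)) (m : Matrix (RConfig X q) (RConfig X q) ℂ) :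
    Matrix (Config L q) (Config L q) ℂ :=
  Matrix.of fun σ τ => if ∀ v, v ∉ X → σ v = τ v then m (res X σ) (res X τ) else 0

/-- The squared norm of a vector. -/
def nsq {ι : Type*} [Fintype ι] (v : ι → ℂ) : ℝ := ∑ i, Complex.normSq (v i)

/-- The operator norm is at most `J`. -/
def OpNormLe (h : Matrix (Config L q) (Config L q) ℂ) (J : ℝ) : Prop :=
  ∀ v, nsq (h *ᵥ v) ≤ J ^ 2 * nsq v

/-- Interaction terms of range `R` and strength `J`: one Hermitian operator per set of sites,
acting only there, zero unless the set is nonempty of diameter at most `R`. -/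
structure Admissible (R : ℕ) (J : ℝ)
    (h : Finset (Site L) → Matrix (Config L q) (Config L q) ℂ) : Prop where
  herm : ∀ X, (h X).IsHermitian
  local_op : ∀ X, ∃ m, h X = lift X m
  bound : ∀ X, OpNormLe (h X) J
  range : ∀ X, h X ≠ 0 → X.Nonempty ∧ ∀ x ∈ X, ∀ y ∈ X, l1 x y ≤ R

/-- `Ω` is the ground state of `H`, with a gap at least `Δ`. -/
def HasGap (H : Matrix (Config L q) (Config L q) ℂ) (Ω : Config L q → ℂ) (Δ : ℝ) : Prop :=
  nsq Ω = 1 ∧ ∃ E₀ : ℝ, H *ᵥ Ω = (E₀ : ℂ) • Ω ∧
    ∀ v, Δ * (nsq v - Complex.normSq (star Ω ⬝ᵥ v)) ≤ (star v ⬝ᵥ (H *ᵥ v)).re - E₀ * nsq v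

/-- The coefficient matrix of a vector across a region and its complement. -/
def coeffMat (X : Finset (Site L)) (ψ : Config L q → ℂ) :
    Matrix (RConfig X q) ({v // v ∉ X} → Fin q) ℂ :=
  Matrix.of fun a c => ψ (glue X a c)

/-- The reduced density matrix. -/
def rdm (X : Finset (Site L)) (ψ : Config L q → ℂ) : Matrix (RConfig X q) (RConfig X q) ℂ :=
  coeffMat X ψ * (coeffMat X ψ)ᴴ

/-- The von Neumann entropy of the reduced density matrix, in nats. -/
def entropy (ψ : Config L q → ℂ) (X : Finset (Site L)) : ℝ :=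
  ∑ i, Real.negMulLog
    ((Matrix.isHermitian_mul_conjTranspose_self (coeffMat X ψ)).eigenvalues i)

/-- The number of lattice edges leaving a region. -/
def edgeBoundary (A : Finset (Site L)) : ℕ :=
  ((A ×ˢ Aᶜ).filter fun p => l1 p.1 p.2 = 1).card

end Vale.Agent.P356
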