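import Vale.Agent.P356.Lift

/-!
# P356: entropy against a product basis
-/

open scoped Matrix ComplexOrder

noncomputable section

namespace Vale.Agent.P356

variable {L q : ℕ}

theorem mul_log_div_ge {x c : ℝ} (hx : 0 ≤ x) (hc : 0 < c) :
    (√x - √c) ^ 2 + (x - c) ≤ x * Real.log (x / c) := by
  rcases hx.eq_or_lt with rfl | hx
  · simp [Real.sq_sqrt hc.le]
  have hlog : Real.log (x / c) = -2 * Real.log (√(c / x)) := by
    rw [Real.log_sqrt (div_nonneg hc.le hx.le), show x / c = (c / x)⁻¹ by rw [inv_div],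
      Real.log_inv]
    ring
  have h1 := Real.log_le_sub_one_of_pos (Real.sqrt_pos.2 (div_pos hc hx))
  have h2 : x * √(c / x) = √x * √c := by
    rw [Real.sqrt_div hc.le]
    field_simp
    rw [Real.sq_sqrt hx.le]
  have h3 := mul_le_mul_of_nonneg_left h1 hx.le
  rw [hlog]
  nlinarith [Real.sq_sqrt hx.le, Real.sq_sqrt hc.le]

/-- The Shannon entropy of a probability vector is below the logarithm of the number of values
by a multiple of its squared distance to the uniform one. -/
theorem sum_negMulLog_le {ι : Type*} [Fintype ι] [Nonempty ι] {p : ι → ℝ} (h0 : ∀ i, 0 ≤ p i)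
    (h1 : ∑ i, p i = 1) :
    ∑ i, Real.negMulLog (p i) + (∑ i, (p i - (Fintype.card ι : ℝ)⁻¹) ^ 2) / 4 ≤
      Real.log (Fintype.card ι) := by
  set n : ℝ := (Fintype.card ι : ℝ) with hn
  have hn1 : 1 ≤ n := Nat.one_le_cast.2 (Nat.one_le_iff_ne_zero.2 Fintype.card_ne_zero)
  have hpt : ∀ i, Real.negMulLog (p i) + (p i - n⁻¹) ^ 2 / 4 ≤
      p i * Real.log n - (p i - n⁻¹) := by
    intro i
    have h := mul_log_div_ge (h0 i) (inv_pos.2 (by linarith : (0 : ℝ) < n))
    have hp1 : p i ≤ 1 := h1 ▸ Finset.single_le_sum (fun j _ => h0 j) (Finset.mem_univ i)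
    have hs1 : √(p i) ≤ 1 := Real.sqrt_le_one.2 hp1
    have hs2 : √(n⁻¹) ≤ 1 := Real.sqrt_le_one.2 (inv_le_one_of_one_le₀ hn1)
    have hsq : (p i - n⁻¹) ^ 2 / 4 ≤ (√(p i) - √(n⁻¹)) ^ 2 := by
      have e : (p i - n⁻¹) ^ 2 = (√(p i) - √(n⁻¹)) ^ 2 * (√(p i) + √(n⁻¹)) ^ 2 := by
        rw [← mul_pow]
        congr 1
        nlinarith [Real.sq_sqrt (h0 i), Real.sq_sqrt (inv_nonneg.2 (by linarith : (0 : ℝ) ≤ n))]
      have h4 : (√(p i) + √(n⁻¹)) ^ 2 ≤ 2 ^ 2 :=
        pow_le_pow_left₀ (add_nonneg (Real.sqrt_nonneg _) (Real.sqrt_nonneg _)) (by linarith) 2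
      have := mul_le_mul_of_nonneg_left h4 (sq_nonneg (√(p i) - √(n⁻¹)))
      rw [← e] at this
      linarith
    rw [Real.negMulLog]
    rcases (h0 i).eq_or_lt with hp | hp
    · rw [← hp] at h hsq ⊢
      simp only [zero_mul, neg_zero, zero_sub] at h hsq ⊢
      linarith
    · rw [Real.log_div hp.ne' (by positivity), Real.log_inv, sub_neg_eq_add, mul_add] at h
      linarith
  calc ∑ i, Real.negMulLog (p i) + (∑ i, (p i - n⁻¹) ^ 2) / 4
      = ∑ i, (Real.negMulLog (p i) + (p i - n⁻¹) ^ 2 / 4) := by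
        rw [Finset.sum_div, Finset.sum_add_distrib]
    _ ≤ ∑ i, (p i * Real.log n - (p i - n⁻¹)) := Finset.sum_le_sum fun i _ => hpt i
    _ = Real.log n := by
        rw [Finset.sum_sub_distrib, Finset.sum_sub_distrib, ← Finset.sum_mul, h1, Finset.sum_const,
          Finset.card_univ, nsmul_eq_mul, mul_inv_cancel₀ (by positivity)]
        ring

/-- The entropy of the eigenvalues is below that of the diagonal in any orthonormal basis. -/
theorem sum_negMulLog_eigenvalues_le {ι : Type*} [Fintype ι] [DecidableEq ι] {ρ W : Matrix ι ι ℂ}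
    (hρ : ρ.PosSemidef) (hW : W * Wᴴ = 1) :
    ∑ i, Real.negMulLog (hρ.1.eigenvalues i) ≤
      ∑ i, Real.negMulLog ((W * ρ * Wᴴ) i i).re := by
  set U : Matrix ι ι ℂ := (hρ.1.eigenvectorUnitary : Matrix ι ι ℂ)
  set V := W * U with hV
  have hU : U * Uᴴ = 1 := Unitary.mul_star_self_of_mem hρ.1.eigenvectorUnitary.2
  have hV1 : V * Vᴴ = 1 := by
    rw [hV, Matrix.conjTranspose_mul, mul_assoc, ← mul_assoc U, hU, one_mul, hW]
  have hV2 : Vᴴ * V = 1 := mul_eq_one_comm.1 hV1
  set lam := hρ.1.eigenvalues with hlam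
  have hdiag : ∀ i, ((W * ρ * Wᴴ) i i).re = ∑ j, Complex.normSq (V i j) * lam j := by
    intro i
    have hs : ρ = U * Matrix.diagonal (fun j => (lam j : ℂ)) * Uᴴ := hρ.1.spectral_theorem
    have e : W * ρ * Wᴴ = V * Matrix.diagonal (fun j => (lam j : ℂ)) * Vᴴ := by
      conv_lhs => rw [hs]
      simp only [hV, Matrix.conjTranspose_mul, mul_assoc]
    rw [e, Matrix.mul_apply, Complex.re_sum]
    refine Finset.sum_congr rfl fun j _ => ?_
    rw [Matrix.mul_diagonal, Matrix.conjTranspose_apply, mul_right_comm, Complex.star_def,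
      Complex.mul_conj, ← Complex.ofReal_mul, Complex.ofReal_re]
  have hrow : ∀ i, ∑ j, Complex.normSq (V i j) = 1 := fun i => by
    have h := congrArg Complex.re (congrFun (congrFun hV1 i) i)
    simpa [Matrix.mul_apply, Complex.re_sum, Complex.mul_conj] using h
  have hcol : ∀ j, ∑ i, Complex.normSq (V i j) = 1 := fun j => by
    have h := congrArg Complex.re (congrFun (congrFun hV2 j) j)
    simpa [Matrix.mul_apply, Complex.re_sum, mul_comm (starRingEnd ℂ _), Complex.mul_conj] using h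
  calc ∑ j, Real.negMulLog (lam j)
      = ∑ i, ∑ j, Complex.normSq (V i j) * Real.negMulLog (lam j) := by
        rw [Finset.sum_comm]
        refine Finset.sum_congr rfl fun j _ => ?_
        rw [← Finset.sum_mul, hcol, one_mul]
    _ ≤ ∑ i, Real.negMulLog (∑ j, Complex.normSq (V i j) * lam j) := by
        refine Finset.sum_le_sum fun i _ => ?_
        have := Real.concaveOn_negMulLog.le_map_sum (t := Finset.univ)
          (w := fun j => Complex.normSq (V i j)) (p := lam)
          (fun j _ => Complex.normSq_nonneg _) (hrow i) (fun j _ => hρ.eigenvalues_nonneg j)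
        simpa only [smul_eq_mul] using this
    _ = _ := Finset.sum_congr rfl fun i _ => by rw [hdiag]

/-- The distribution of the configurations of a region. -/
def marg (ψ : Config L q → ℂ) (Y : Finset (Site L)) (a : RConfig Y q) : ℝ :=
  ∑ c : {v // v ∉ Y} → Fin q, Complex.normSq (ψ (glue Y a c))

/-- The Shannon entropy of a region in the product basis. -/
def shannon (ψ : Config L q → ℂ) (Y : Finset (Site L)) : ℝ :=
  ∑ a, Real.negMulLog (marg ψ Y a)

theorem marg_nonneg (ψ : Config L q → ℂ) (Y : Finset (Site L)) (a : RConfig Y q) :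
    0 ≤ marg ψ Y a := Finset.sum_nonneg fun _ _ => Complex.normSq_nonneg _

theorem sum_marg_mul (ψ : Config L q → ℂ) (Y : Finset (Site L)) (f : RConfig Y q → ℝ) :
    ∑ a, marg ψ Y a * f a = ∑ σ, Complex.normSq (ψ σ) * f (res Y σ) := by
  rw [sum_config Y]
  refine Finset.sum_congr rfl fun a _ => ?_
  rw [marg, Finset.sum_mul]
  exact Finset.sum_congr rfl fun c _ => by rw [res_glue]

theorem sum_marg (ψ : Config L q → ℂ) (Y : Finset (Site L)) : ∑ a, marg ψ Y a = nsq ψ := by
  have := sum_marg_mul ψ Y fun _ => (1 : ℝ)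
  simpa [nsq] using this

theorem shannon_eq (ψ : Config L q → ℂ) (Y : Finset (Site L)) :
    shannon ψ Y = -∑ σ, Complex.normSq (ψ σ) * Real.log (marg ψ Y (res Y σ)) := by
  rw [← sum_marg_mul ψ Y fun a => Real.log (marg ψ Y a), shannon, ← Finset.sum_neg_distrib]
  exact Finset.sum_congr rfl fun a _ => by rw [Real.negMulLog, neg_mul]

theorem normSq_le_marg (ψ : Config L q → ℂ) (Y : Finset (Site L)) (σ : Config L q) :
    Complex.normSq (ψ σ) ≤ marg ψ Y (res Y σ) := by
  conv_lhs => rw [← glue_res Y σ]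
  exact Finset.single_le_sum
    (f := fun c : {v // v ∉ Y} → Fin q => Complex.normSq (ψ (glue Y (res Y σ) c)))
    (fun c _ => Complex.normSq_nonneg _) (Finset.mem_univ _)

theorem shannon_union {ψ : Config L q → ℂ} (hψ : nsq ψ = 1) {B Y : Finset (Site L)}
    (hd : Disjoint B Y) : shannon ψ (B ∪ Y) ≤ shannon ψ B + shannon ψ Y := by
  classical
  let rB : RConfig (B ∪ Y) q → RConfig B q := fun a v => a ⟨v, Finset.mem_union_left _ v.2⟩
  let rY : RConfig (B ∪ Y) q → RConfig Y q := fun a v => a ⟨v, Finset.mem_union_right _ v.2⟩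
  let e : RConfig (B ∪ Y) q ≃ RConfig B q × RConfig Y q :=
    { toFun := fun a => (rB a, rY a)
      invFun := fun p v => if h : (v : Site L) ∈ B then p.1 ⟨v, h⟩ else
        p.2 ⟨v, (Finset.mem_union.1 v.2).resolve_left h⟩
      left_inv := fun a => funext fun v => by
        by_cases h : (v : Site L) ∈ B <;> simp [rB, rY, h]
      right_inv := fun p => by
        refine Prod.ext (funext fun v => ?_) (funext fun v => ?_)
        · simp [rB, v.2]
        · simp [rY, Finset.disjoint_right.1 hd v.2] }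
  have hprod : ∑ a, marg ψ B (rB a) * marg ψ Y (rY a) = 1 := by
    change ∑ a, (fun p : RConfig B q × RConfig Y q => marg ψ B p.1 * marg ψ Y p.2) (e a) = 1
    rw [e.sum_comp fun p => marg ψ B p.1 * marg ψ Y p.2, Fintype.sum_prod_type, ← Finset.sum_mul_sum,
      sum_marg, sum_marg, hψ, one_mul]
  have hkey : ∀ σ, Complex.normSq (ψ σ) *
      (Real.log (marg ψ B (res B σ)) + Real.log (marg ψ Y (res Y σ)) -
        Real.log (marg ψ (B ∪ Y) (res (B ∪ Y) σ))) ≤
      Complex.normSq (ψ σ) * ((marg ψ B (res B σ) * marg ψ Y (res Y σ)) /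
        marg ψ (B ∪ Y) (res (B ∪ Y) σ) - 1) := by
    intro σ
    rcases (Complex.normSq_nonneg (ψ σ)).eq_or_lt with h | h
    · rw [← h, zero_mul, zero_mul]
    refine mul_le_mul_of_nonneg_left ?_ h.le
    have h1 := h.trans_le (normSq_le_marg ψ B σ)
    have h2 := h.trans_le (normSq_le_marg ψ Y σ)
    have h3 := h.trans_le (normSq_le_marg ψ (B ∪ Y) σ)
    rw [← Real.log_mul h1.ne' h2.ne', ← Real.log_div (mul_pos h1 h2).ne' h3.ne']
    exact Real.log_le_sub_one_of_pos (div_pos (mul_pos h1 h2) h3)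
  have hsum := Finset.sum_le_sum (s := Finset.univ) fun σ _ => hkey σ
  have hrhs : ∑ σ, Complex.normSq (ψ σ) * ((marg ψ B (res B σ) * marg ψ Y (res Y σ)) /
      marg ψ (B ∪ Y) (res (B ∪ Y) σ) - 1) ≤ 0 := by
    calc _ = ∑ a, marg ψ (B ∪ Y) a *
          ((marg ψ B (rB a) * marg ψ Y (rY a)) / marg ψ (B ∪ Y) a - 1) :=
          (sum_marg_mul ψ (B ∪ Y) fun a =>
            (marg ψ B (rB a) * marg ψ Y (rY a)) / marg ψ (B ∪ Y) a - 1).symm
      _ ≤ ∑ a, (marg ψ B (rB a) * marg ψ Y (rY a) - marg ψ (B ∪ Y) a) := by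
          refine Finset.sum_le_sum fun a _ => ?_
          rcases (marg_nonneg ψ (B ∪ Y) a).eq_or_lt with h | h
          · rw [← h]
            simpa using mul_nonneg (marg_nonneg ψ B (rB a)) (marg_nonneg ψ Y (rY a))
          · exact le_of_eq (by field_simp)
      _ = 0 := by rw [Finset.sum_sub_distrib, hprod, sum_marg, hψ, sub_self]
  simp only [shannon_eq]
  simp only [mul_sub, mul_add, Finset.sum_sub_distrib, Finset.sum_add_distrib, mul_one] at hsum hrhs
  linarith

theorem card_RConfig (Y : Finset (Site L)) :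
    (Fintype.card (RConfig Y q) : ℝ) = (q : ℝ) ^ Y.card := by
  simp [RConfig]

theorem shannon_le_log {ψ : Config L q → ℂ} (hq : 0 < q) (hψ : nsq ψ = 1)
    (Y : Finset (Site L)) : shannon ψ Y ≤ (Y.card : ℝ) * Real.log q := by
  have : Nonempty (RConfig Y q) := ⟨fun _ => ⟨0, hq⟩⟩
  have h := sum_negMulLog_le (marg_nonneg ψ Y) (by rw [sum_marg, hψ])
  rw [card_RConfig, Real.log_pow] at h
  have : 0 ≤ ∑ i, (marg ψ Y i - ((q : ℝ) ^ Y.card)⁻¹) ^ 2 :=
    Finset.sum_nonneg fun _ _ => sq_nonneg _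
  unfold shannon
  linarith

theorem shannon_split {ψ : Config L q → ℂ} (hq : 0 < q) (hψ : nsq ψ = 1) {ι : Type*}
    (P : Finset ι) (B : ι → Finset (Site L)) :
    ∀ A : Finset (Site L), (∀ i ∈ P, B i ⊆ A) →
      (∀ i ∈ P, ∀ j ∈ P, i ≠ j → Disjoint (B i) (B j)) →
      shannon ψ A ≤ ∑ i ∈ P, shannon ψ (B i) +
        ((A.card : ℝ) - ∑ i ∈ P, ((B i).card : ℝ)) * Real.log q := by
  classical
  induction P using Finset.induction_on with
  | empty => intro A _ _; simpa using shannon_le_log hq hψ A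
  | @insert i P hi ih =>
    intro A hsub hdis
    have hiA : B i ⊆ A := hsub i (Finset.mem_insert_self i P)
    have h1 := ih (A \ B i) (fun j hj => Finset.subset_sdiff.2
      ⟨hsub j (Finset.mem_insert_of_mem hj), hdis j (Finset.mem_insert_of_mem hj) i
        (Finset.mem_insert_self i P) fun e => hi (e ▸ hj)⟩)
      fun j hj k hk => hdis j (Finset.mem_insert_of_mem hj) k (Finset.mem_insert_of_mem hk)
    have h2 := shannon_union hψ (B := B i) (Y := A \ B i) Finset.disjoint_sdiff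
    rw [Finset.union_sdiff_of_subset hiA] at h2
    rw [Finset.card_sdiff_of_subset hiA, Nat.cast_sub (Finset.card_le_card hiA)] at h1
    rw [Finset.sum_insert hi, Finset.sum_insert hi]
    linarith

theorem marg_eq_rdm (ψ : Config L q → ℂ) (Y : Finset (Site L)) (a : RConfig Y q) :
    marg ψ Y a = (rdm Y ψ a a).re := (rdm_diag Y ψ a).symm

theorem nsq_lift {X : Finset (Site L)} (m : Matrix (RConfig X q) (RConfig X q) ℂ)
    (hm : mᴴ * m = 1) (ψ : Config L q → ℂ) : nsq (lift X m *ᵥ ψ) = nsq ψ := by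
  have key : ∀ v : Config L q → ℂ, (nsq v : ℂ) = star v ⬝ᵥ v := fun v => by
    rw [nsq, dotProduct, Complex.ofReal_sum]
    exact Finset.sum_congr rfl fun σ _ => by rw [Complex.normSq_eq_conj_mul_self]; rfl
  apply Complex.ofReal_injective
  rw [key, key, Matrix.star_mulVec, ← Matrix.dotProduct_mulVec, Matrix.mulVec_mulVec,
    lift_conjTranspose, ← lift_mul, hm, lift_one, Matrix.one_mulVec]

theorem liftIn_unitary (hq : 0 < q) {B A : Finset (Site L)} (h : B ⊆ A)
    {m : Matrix (RConfig B q) (RConfig B q) ℂ} (hm : m * mᴴ = 1) :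
    liftIn h m * (liftIn h m)ᴴ = 1 := by
  refine lift_injective hq A ?_
  rw [lift_mul, ← lift_conjTranspose, lift_liftIn, lift_conjTranspose, ← lift_mul, hm, lift_one,
    lift_one]

/-- One product basis in which the entropy of the region is compared with those of the blocks. -/
theorem exists_product_basis (hq : 0 < q) {Ω : Config L q → ℂ} (hΩ : nsq Ω = 1) {ι : Type*}
    (P : Finset ι) (B : ι → Finset (Site L)) (A : Finset (Site L)) :
    (∀ i ∈ P, B i ⊆ A) → (∀ i ∈ P, ∀ j ∈ P, i ≠ j → Disjoint (B i) (B j)) →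
    ∃ ψ : Config L q → ℂ, ∃ W : Matrix (RConfig A q) (RConfig A q) ℂ,
      nsq ψ = 1 ∧ W * Wᴴ = 1 ∧ rdm A ψ = W * rdm A Ω * Wᴴ ∧
      (∀ Y : Finset (Site L), (∀ i ∈ P, Disjoint (B i) Y) → rdm Y ψ = rdm Y Ω) ∧
      ∀ i ∈ P, shannon ψ (B i) = entropy Ω (B i) := by
  classical
  induction P using Finset.induction_on with
  | empty =>
    intro _ _
    exact ⟨Ω, 1, hΩ, by simp, by simp, fun _ _ => rfl, by simp⟩
  | @insert i P hi ih =>
    intro hsub hdis
    obtain ⟨ψ, W, h1, h2, h3, h4, h5⟩ := ih (fun j hj => hsub j (Finset.mem_insert_of_mem hj))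
      fun j hj k hk => hdis j (Finset.mem_insert_of_mem hj) k (Finset.mem_insert_of_mem hk)
    have hdi : ∀ j ∈ P, Disjoint (B j) (B i) := fun j hj =>
      hdis j (Finset.mem_insert_of_mem hj) i (Finset.mem_insert_self i P) fun e => hi (e ▸ hj)
    have hiA : B i ⊆ A := hsub i (Finset.mem_insert_self i P)
    have hH := Matrix.isHermitian_mul_conjTranspose_self (coeffMat (B i) Ω)
    set U : Matrix (RConfig (B i) q) (RConfig (B i) q) ℂ :=
      (hH.eigenvectorUnitary : Matrix (RConfig (B i) q) (RConfig (B i) q) ℂ)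
    have hU1 : U * Uᴴ = 1 := Unitary.mul_star_self_of_mem hH.eigenvectorUnitary.2
    have hU2 : Uᴴ * U = 1 := mul_eq_one_comm.1 hU1
    have hm : (Uᴴ)ᴴ * Uᴴ = 1 := by rw [Matrix.conjTranspose_conjTranspose, hU1]
    have hm' : Uᴴ * (Uᴴ)ᴴ = 1 := by rw [Matrix.conjTranspose_conjTranspose, hU2]
    refine ⟨lift (B i) Uᴴ *ᵥ ψ, liftIn hiA Uᴴ * W, by rw [nsq_lift _ hm, h1], ?_, ?_,
      fun Y hY => ?_, fun j hj => ?_⟩
    · rw [Matrix.conjTranspose_mul, mul_assoc, ← mul_assoc W, h2, one_mul,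
        liftIn_unitary hq hiA hm']
    · rw [← lift_liftIn hiA, rdm_lift, h3, Matrix.conjTranspose_mul]
      simp only [mul_assoc]
    · rw [rdm_lift_disjoint (hY i (Finset.mem_insert_self i P)) _ hm,
        h4 Y fun j hj => hY j (Finset.mem_insert_of_mem hj)]
    · rcases Finset.mem_insert.1 hj with rfl | hj
      · have e : rdm (B j) (lift (B j) Uᴴ *ᵥ ψ) =
            Matrix.diagonal (fun a => ((hH.eigenvalues a : ℝ) : ℂ)) := by
          rw [rdm_lift, h4 (B j) hdi, Matrix.conjTranspose_conjTranspose]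
          have hs : rdm (B j) Ω = U * Matrix.diagonal (fun a => ((hH.eigenvalues a : ℝ) : ℂ)) * Uᴴ :=
            hH.spectral_theorem
          rw [hs]
          simp only [mul_assoc, hU2, mul_one]
          rw [← mul_assoc, hU2, one_mul]
        simp only [shannon, marg_eq_rdm, e, Matrix.diagonal_apply_eq, Complex.ofReal_re]
        rfl
      · rw [shannon]
        simp only [marg_eq_rdm, rdm_lift_disjoint (hdi j hj).symm _ hm]
        simp only [← marg_eq_rdm]
        exact h5 j hj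

/-- Subadditivity of the entropy over disjoint blocks of a region. -/
theorem entropy_le_blocks (hq : 0 < q) {Ω : Config L q → ℂ} (hΩ : nsq Ω = 1) {ι : Type*}
    (P : Finset ι) (B : ι → Finset (Site L)) (A : Finset (Site L))
    (hsub : ∀ i ∈ P, B i ⊆ A) (hdis : ∀ i ∈ P, ∀ j ∈ P, i ≠ j → Disjoint (B i) (B j)) :
    entropy Ω A ≤ ∑ i ∈ P, entropy Ω (B i) +
      ((A.card : ℝ) - ∑ i ∈ P, ((B i).card : ℝ)) * Real.log q := by
  obtain ⟨ψ, W, h1, h2, h3, -, h5⟩ := exists_product_basis hq hΩ P B A hsub hdis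
  have hle : entropy Ω A ≤ shannon ψ A := by
    refine (sum_negMulLog_eigenvalues_le (rdm_posSemidef A Ω) h2).trans (le_of_eq ?_)
    rw [← h3]
    exact Finset.sum_congr rfl fun a _ => by rw [marg_eq_rdm]
  refine hle.trans ((shannon_split hq h1 P B A hsub hdis).trans (le_of_eq ?_))
  rw [Finset.sum_congr rfl fun i hi => h5 i hi]

end Vale.Agent.P356
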