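import Vale.Agent.P356.Entropy

/-!
# P356: a gap keeps every small ball away from the maximally mixed state
-/

open scoped Matrix ComplexOrder

noncomputable section

namespace Vale.Agent.P356

variable {L q : ℕ}

/-- The ball of radius `R` around a site. -/
def ball (R : ℕ) (x : Site L) : Finset (Site L) := Finset.univ.filter fun y => l1 x y ≤ R

theorem mem_ball_self (R : ℕ) (x : Site L) : x ∈ ball R x := Finset.mem_filter.2 ⟨Finset.mem_univ _, by simp [l1]⟩

theorem nsq_eq_dot {ι : Type*} [Fintype ι] (v : ι → ℂ) : nsq v = (star v ⬝ᵥ v).re := by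
  simp [nsq, dotProduct, Complex.re_sum, Complex.normSq_apply]

theorem nsq_nonneg {ι : Type*} [Fintype ι] (v : ι → ℂ) : 0 ≤ nsq v :=
  Finset.sum_nonneg fun _ _ => Complex.normSq_nonneg _

theorem abs_dot_le {ι : Type*} [Fintype ι] (v w : ι → ℂ) :
    |(star v ⬝ᵥ w).re| ≤ √(nsq v) * √(nsq w) := by
  refine (Complex.abs_re_le_norm _).trans ((norm_sum_le _ _).trans ?_)
  have := Real.sum_mul_le_sqrt_mul_sqrt Finset.univ (fun i => ‖v i‖) (fun i => ‖w i‖)
  simpa [nsq, Complex.normSq_eq_norm_sq] using this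

theorem OpNormLe.abs_expect_le {h : Matrix (Config L q) (Config L q) ℂ} {J : ℝ} (hJ : 0 ≤ J)
    (hh : OpNormLe h J) (v : Config L q → ℂ) : |(star v ⬝ᵥ (h *ᵥ v)).re| ≤ J * nsq v := by
  refine (abs_dot_le _ _).trans ?_
  calc √(nsq v) * √(nsq (h *ᵥ v)) ≤ √(nsq v) * √(J ^ 2 * nsq v) :=
        mul_le_mul_of_nonneg_left (Real.sqrt_le_sqrt (hh v)) (Real.sqrt_nonneg _)
    _ = J * nsq v := by
        rw [Real.sqrt_mul (sq_nonneg J), Real.sqrt_sq hJ, mul_left_comm,
          Real.mul_self_sqrt (nsq_nonneg v)]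

/-- A unitary on one site with vanishing expectation in a given state. -/
theorem exists_flip (hq : 2 ≤ q) (X : Finset (Site L)) (hX : X.Nonempty) (Ω : Config L q → ℂ) :
    ∃ u : Matrix (RConfig X q) (RConfig X q) ℂ, uᴴ * u = 1 ∧ (u * rdm X Ω).trace = 0 := by
  classical
  have : NeZero q := ⟨by omega⟩
  have hH := Matrix.isHermitian_mul_conjTranspose_self (coeffMat X Ω)
  set V : Matrix (RConfig X q) (RConfig X q) ℂ :=
    (hH.eigenvectorUnitary : Matrix (RConfig X q) (RConfig X q) ℂ)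
  have hV1 : V * Vᴴ = 1 := Unitary.mul_star_self_of_mem hH.eigenvectorUnitary.2
  have hV2 : Vᴴ * V = 1 := mul_eq_one_comm.1 hV1
  let π : Equiv.Perm (RConfig X q) := Equiv.addRight (fun _ => (1 : Fin q))
  have hπ : ∀ a, π a ≠ a := fun a h => by
    obtain ⟨v, hv⟩ := hX
    have h1 : a ⟨v, hv⟩ + 1 = a ⟨v, hv⟩ := congrFun h ⟨v, hv⟩
    have h2 : (1 : Fin q) = 0 := add_left_cancel (h1.trans (add_zero _).symm)
    have h3 := congrArg Fin.val h2
    simp [Nat.mod_eq_of_lt (show 1 < q by omega)] at h3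
  set Pm : Matrix (RConfig X q) (RConfig X q) ℂ := π.permMatrix ℂ with hPdef
  have hP : Pmᴴ * Pm = 1 := by
    rw [hPdef, Matrix.conjTranspose_permMatrix, ← Matrix.permMatrix_mul, mul_inv_cancel,
      Matrix.permMatrix_one]
  refine ⟨V * Pm * Vᴴ, ?_, ?_⟩
  · calc (V * Pm * Vᴴ)ᴴ * (V * Pm * Vᴴ) = V * (Pmᴴ * ((Vᴴ * V) * (Pm * Vᴴ))) := by
          simp only [Matrix.conjTranspose_mul, Matrix.conjTranspose_conjTranspose, mul_assoc]
      _ = 1 := by rw [hV2, one_mul, ← mul_assoc Pmᴴ, hP, one_mul, hV1]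
  · have hs : rdm X Ω = V * Matrix.diagonal (fun a => ((hH.eigenvalues a : ℝ) : ℂ)) * Vᴴ :=
      hH.spectral_theorem
    rw [hs, Matrix.trace_mul_comm, mul_assoc V, mul_assoc V, Matrix.trace_mul_comm, mul_assoc,
      mul_assoc, mul_assoc, hV2, mul_one, ← mul_assoc Vᴴ, hV2, one_mul]
    refine Finset.sum_eq_zero fun a _ => ?_
    rw [Matrix.diag_apply, Matrix.diagonal_mul, hPdef]
    simp [Equiv.Perm.permMatrix, PEquiv.toMatrix_apply, hπ a]

/-- A traceless local operator with a large expectation pushes the entropy below its maximum. -/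
theorem entropy_defect (hq : 0 < q) {Ω : Config L q → ℂ} (hΩ : nsq Ω = 1) (B : Finset (Site L))
    (K : Matrix (RConfig B q) (RConfig B q) ℂ) (hK : K.trace = 0) {Δ N : ℝ} (hΔ : 0 < Δ)
    (hbig : Δ ≤ (star Ω ⬝ᵥ (lift B K *ᵥ Ω)).re)
    (hN : ∀ v, |(star v ⬝ᵥ (lift B K *ᵥ v)).re| ≤ N * nsq v) :
    entropy Ω B ≤ (B.card : ℝ) * Real.log q - Δ ^ 2 / (4 * (q : ℝ) ^ B.card * N ^ 2) := by
  classical
  have : Nonempty (RConfig B q) := ⟨fun _ => ⟨0, hq⟩⟩
  have hH := Matrix.isHermitian_mul_conjTranspose_self (coeffMat B Ω)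
  set U : Matrix (RConfig B q) (RConfig B q) ℂ :=
    (hH.eigenvectorUnitary : Matrix (RConfig B q) (RConfig B q) ℂ)
  have hU1 : U * Uᴴ = 1 := Unitary.mul_star_self_of_mem hH.eigenvectorUnitary.2
  have hU2 : Uᴴ * U = 1 := mul_eq_one_comm.1 hU1
  set lam := hH.eigenvalues with hlam
  set K' := Uᴴ * K * U with hK'
  have h0 : ∀ a, 0 ≤ lam a := (rdm_posSemidef B Ω).eigenvalues_nonneg
  have h1 : ∑ a, lam a = 1 := by
    have h : (rdm B Ω).trace = ∑ a, (lam a : ℂ) := hH.trace_eq_sum_eigenvalues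
    rw [rdm_trace, hΩ, ← Complex.ofReal_sum] at h
    exact Complex.ofReal_injective h.symm
  have hE : star Ω ⬝ᵥ (lift B K *ᵥ Ω) = ∑ a, K' a a * (lam a : ℂ) := by
    have hs : rdm B Ω = U * Matrix.diagonal (fun a => (lam a : ℂ)) * Uᴴ := hH.spectral_theorem
    rw [expect_lift, hs, ← mul_assoc, Matrix.trace_mul_comm, ← mul_assoc, ← mul_assoc]
    exact Finset.sum_congr rfl fun a _ => by rw [Matrix.diag_apply, Matrix.mul_diagonal]
  have htr : ∑ a, (K' a a).re = 0 := by
    have h : K'.trace = 0 := by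
      rw [hK', Matrix.trace_mul_comm, ← mul_assoc, hU1, one_mul, hK]
    rw [← Complex.re_sum]
    exact congrArg Complex.re h
  have hcol : ∀ a, |(K' a a).re| ≤ N := by
    intro a
    let c₀ : {v // v ∉ B} → Fin q := fun _ => ⟨0, hq⟩
    let φ : Config L q → ℂ := fun σ => if (fun v : {v // v ∉ B} => σ v) = c₀ then U (res B σ) a else 0
    have hφ : ∀ b c, φ (glue B b c) = if c = c₀ then U b a else 0 := fun b c => by
      simp only [φ]
      rw [res_glue, show (fun v : {v // v ∉ B} => glue B b c v) = c from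
        congrArg Prod.snd (split_glue B b c)]
    have hrdm : rdm B φ = Matrix.of fun b b' => U b a * star (U b' a) := by
      ext b b'
      simp [rdm, Matrix.mul_apply, coeffMat, hφ]
    have hn : nsq φ = 1 := by
      have h : (rdm B φ).trace = 1 := by
        rw [hrdm]
        have := congrFun (congrFun hU2 a) a
        simpa [Matrix.trace, Matrix.mul_apply, mul_comm] using this
      rw [rdm_trace] at h
      exact_mod_cast h
    have he : star φ ⬝ᵥ (lift B K *ᵥ φ) = K' a a := by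
      rw [expect_lift, hrdm, hK', mul_assoc]
      simp only [Matrix.trace, Matrix.diag, Matrix.mul_apply, Matrix.of_apply,
        Matrix.conjTranspose_apply, Finset.mul_sum]
      exact Finset.sum_congr rfl fun b _ => Finset.sum_congr rfl fun b' _ => by ring
    have := hN φ
    rwa [he, hn, mul_one] at this
  have hN0 : 0 ≤ N := by
    have := hN Ω
    rw [hΩ, mul_one] at this
    exact (abs_nonneg _).trans this
  set n : ℝ := (Fintype.card (RConfig B q) : ℝ) with hn
  have hD : Δ ≤ N * ∑ a, |lam a - n⁻¹| := by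
    refine hbig.trans ?_
    have e : (star Ω ⬝ᵥ (lift B K *ᵥ Ω)).re = ∑ a, (K' a a).re * (lam a - n⁻¹) := by
      rw [hE, Complex.re_sum]
      simp only [mul_sub, Finset.sum_sub_distrib, ← Finset.sum_mul, htr, zero_mul, sub_zero,
        Complex.re_mul_ofReal]
    rw [e, Finset.mul_sum]
    refine Finset.sum_le_sum fun a _ => (le_abs_self _).trans ?_
    rw [abs_mul]
    exact mul_le_mul_of_nonneg_right (hcol a) (abs_nonneg _)
  have hsum := sum_negMulLog_le h0 h1
  rw [← hn] at hsum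
  have hcs : (∑ a, |lam a - n⁻¹|) ^ 2 ≤ n * ∑ a, (lam a - n⁻¹) ^ 2 := by
    refine sq_sum_le_card_mul_sum_sq.trans_eq ?_
    rw [Finset.card_univ]
    simp only [sq_abs, hn]
  have hNp : 0 < N := by
    rcases hN0.eq_or_lt with h | h
    · rw [← h, zero_mul] at hD; linarith
    · exact h
  have hn0 : 0 < n := by rw [hn, card_RConfig]; positivity
  have key : Δ ^ 2 / (n * N ^ 2) ≤ ∑ a, (lam a - n⁻¹) ^ 2 := by
    rw [div_le_iff₀ (by positivity)]
    have := pow_le_pow_left₀ hΔ.le hD 2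
    rw [mul_pow] at this
    have := mul_le_mul_of_nonneg_left hcs (sq_nonneg N)
    linarith
  have hcard : n = (q : ℝ) ^ B.card := card_RConfig B
  rw [hcard] at key hsum
  rw [Real.log_pow] at hsum
  have e2 : Δ ^ 2 / (4 * (q : ℝ) ^ B.card * N ^ 2) = Δ ^ 2 / ((q : ℝ) ^ B.card * N ^ 2) / 4 := by
    ring
  unfold entropy
  rw [← hlam, e2]
  linarith

/-- In a gapped ground state every ball of radius `R` misses a fixed amount of entropy. -/
theorem ball_defect (hq : 2 ≤ q) {R : ℕ} {J Δ : ℝ} (hJ : 0 < J) (hΔ : 0 < Δ)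
    {h : Finset (Site L) → Matrix (Config L q) (Config L q) ℂ} (hA : Admissible R J h)
    {Ω : Config L q → ℂ} (hg : HasGap (∑ X, h X) Ω Δ) (x : Site L) :
    entropy Ω (ball R x) ≤ ((ball R x).card : ℝ) * Real.log q -
      Δ ^ 2 / (4 * (q : ℝ) ^ (ball R x).card * (2 * J * (2 : ℝ) ^ (ball R x).card) ^ 2) := by
  classical
  obtain ⟨hΩ, E₀, hE, hgap⟩ := hg
  set H : Matrix (Config L q) (Config L q) ℂ := ∑ X, h X with hH
  obtain ⟨u, hu, hzero⟩ := exists_flip hq {x} (Finset.singleton_nonempty x) Ω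
  set B := ball R x
  have hxB : ({x} : Finset (Site L)) ⊆ B := Finset.singleton_subset_iff.2 (mem_ball_self R x)
  set Uu := lift {x} u with hUu
  have hUU : Uuᴴ * Uu = 1 := by rw [hUu, lift_conjTranspose, ← lift_mul, hu, lift_one]
  set S : Finset (Finset (Site L)) := Finset.univ.filter fun X => x ∈ X ∧ h X ≠ 0
  have hSB : ∀ X ∈ S, X ⊆ B := fun X hX y hy => by
    obtain ⟨hx, hne⟩ := (Finset.mem_filter.1 hX).2
    simpa [B, ball] using (hA.range X hne).2 x hx y hy
  choose m hm using hA.local_op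
  let u' := liftIn hxB u
  let K : Matrix (RConfig B q) (RConfig B q) ℂ := ∑ X ∈ S.attach,
    (u'ᴴ * liftIn (hSB X.1 X.2) (m X.1) * u' - liftIn (hSB X.1 X.2) (m X.1))
  have hu' : lift B u' = Uu := lift_liftIn hxB u
  have hterm : ∀ X, X ∉ S → Uuᴴ * h X * Uu - h X = 0 := by
    intro X hX
    by_cases hx : x ∈ X
    · have : h X = 0 := by
        by_contra hne
        exact hX (Finset.mem_filter.2 ⟨Finset.mem_univ _, hx, hne⟩)
      simp [this]
    · rw [hUu, hm X, mul_assoc, lift_commute (Finset.disjoint_singleton_right.2 hx), ← mul_assoc,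
        ← hUu, hUU, one_mul, sub_self]
  have hK : lift B K = Uuᴴ * H * Uu - H := by
    rw [hH, Finset.mul_sum, Finset.sum_mul, ← Finset.sum_sub_distrib,
      ← Finset.sum_subset (Finset.subset_univ S) fun X _ hX => hterm X hX, ← Finset.sum_attach]
    simp only [K, lift_sum, lift_sub, lift_mul, ← lift_conjTranspose, hu', lift_liftIn, ← hm]
  have htr : K.trace = 0 := by
    have h1 : (lift B K).trace = 0 := by
      rw [hK, Matrix.trace_sub, Matrix.trace_mul_comm, ← mul_assoc,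
        mul_eq_one_comm.1 hUU, one_mul, sub_self]
    rw [lift_trace] at h1
    refine (mul_eq_zero.1 h1).resolve_right ?_
    have : Nonempty (Fin q) := ⟨⟨0, by omega⟩⟩
    exact Nat.cast_ne_zero.2 Fintype.card_ne_zero
  have hbig : Δ ≤ (star Ω ⬝ᵥ (lift B K *ᵥ Ω)).re := by
    have h0 : star Ω ⬝ᵥ (Uu *ᵥ Ω) = 0 := by rw [hUu, expect_lift, hzero]
    have h1 := hgap (Uu *ᵥ Ω)
    rw [h0, map_zero, sub_zero, hUu, nsq_lift u hu, hΩ, ← hUu, mul_one, mul_one] at h1
    rw [hK, Matrix.sub_mulVec, dotProduct_sub, Complex.sub_re, hE, dotProduct_smul]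
    have e1 : star Ω ⬝ᵥ (Uuᴴ * H * Uu) *ᵥ Ω = star (Uu *ᵥ Ω) ⬝ᵥ (H *ᵥ (Uu *ᵥ Ω)) := by
      rw [Matrix.star_mulVec, ← Matrix.dotProduct_mulVec, Matrix.mulVec_mulVec,
        Matrix.mulVec_mulVec, mul_assoc]
    rw [e1, smul_eq_mul, Complex.re_ofReal_mul, ← nsq_eq_dot, hΩ, mul_one]
    exact h1
  refine entropy_defect (by omega) hΩ B K htr hΔ hbig fun v => ?_
  have hv : ∀ X, |(star v ⬝ᵥ ((Uuᴴ * h X * Uu - h X) *ᵥ v)).re| ≤ 2 * J * nsq v := by
    intro X
    have e1 : star v ⬝ᵥ (Uuᴴ * h X * Uu) *ᵥ v = star (Uu *ᵥ v) ⬝ᵥ (h X *ᵥ (Uu *ᵥ v)) := by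
      rw [Matrix.star_mulVec, ← Matrix.dotProduct_mulVec, Matrix.mulVec_mulVec,
        Matrix.mulVec_mulVec, mul_assoc]
    rw [Matrix.sub_mulVec, dotProduct_sub, Complex.sub_re, e1]
    refine (abs_sub _ _).trans ?_
    have b1 := (hA.bound X).abs_expect_le hJ.le (Uu *ᵥ v)
    rw [hUu, nsq_lift u hu] at b1
    have b2 := (hA.bound X).abs_expect_le hJ.le v
    rw [hUu]
    linarith
  have hK' : lift B K = ∑ X ∈ S, (Uuᴴ * h X * Uu - h X) := by
    rw [hK, hH, Finset.mul_sum, Finset.sum_mul, ← Finset.sum_sub_distrib]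
    exact (Finset.sum_subset (Finset.subset_univ S) fun X _ hX => hterm X hX).symm
  rw [hK', Matrix.sum_mulVec, dotProduct_sum, Complex.re_sum]
  refine (Finset.abs_sum_le_sum_abs _ _).trans ((Finset.sum_le_sum fun X _ => hv X).trans ?_)
  rw [Finset.sum_const, nsmul_eq_mul]
  have hc : (S.card : ℝ) ≤ (2 : ℝ) ^ B.card := by
    have := Finset.card_le_card (fun X hX => Finset.mem_powerset.2 (hSB X hX) : S ⊆ B.powerset)
    rw [Finset.card_powerset] at this
    exact_mod_cast this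
  have := mul_le_mul_of_nonneg_right hc (mul_nonneg (by positivity : 0 ≤ 2 * J) (nsq_nonneg v))
  linarith

end Vale.Agent.P356
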