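import Vale.Agent.P356.Defs

/-!
# P356: operators on a region and reduced density matrices
-/

open scoped Matrix ComplexOrder

noncomputable section

namespace Vale.Agent.P356

variable {L q : ℕ}

/-- A configuration as a pair of partial configurations. -/
def split (X : Finset (Site L)) :
    Config L q ≃ RConfig X q × ({v // v ∉ X} → Fin q) where
  toFun σ := (res X σ, fun v => σ v)
  invFun p := glue X p.1 p.2
  left_inv σ := by
    funext v
    by_cases h : v ∈ X <;> simp [glue, res, h]
  right_inv p := by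
    rcases p with ⟨a, c⟩
    refine Prod.ext (funext fun v => ?_) (funext fun v => ?_)
    · simp [glue, res]
    · simp [glue, v.2]

theorem split_glue (X : Finset (Site L)) (a : RConfig X q) (c : {v // v ∉ X} → Fin q) :
    split X (glue X a c) = (a, c) := (split X).apply_symm_apply (a, c)

theorem res_glue (X : Finset (Site L)) (a : RConfig X q) (c : {v // v ∉ X} → Fin q) :
    res X (glue X a c) = a := congrArg Prod.fst (split_glue X a c)

theorem glue_res (X : Finset (Site L)) (σ : Config L q) :
    glue X (res X σ) (fun v => σ v) = σ := (split X).symm_apply_apply σ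

theorem sum_config {α : Type*} [AddCommMonoid α] (X : Finset (Site L)) (f : Config L q → α) :
    ∑ σ, f σ = ∑ a : RConfig X q, ∑ c : {v // v ∉ X} → Fin q, f (glue X a c) := by
  rw [← (split X).symm.sum_comp, Fintype.sum_prod_type]
  rfl

theorem lift_glue (X : Finset (Site L)) (m : Matrix (RConfig X q) (RConfig X q) ℂ)
    (a b : RConfig X q) (c d : {v // v ∉ X} → Fin q) :
    lift X m (glue X a c) (glue X b d) = if c = d then m a b else 0 := by
  rw [lift, Matrix.of_apply, res_glue, res_glue]
  refine if_congr ⟨fun h => funext fun v => ?_, fun h v hv => ?_⟩ rfl rfl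
  · simpa [glue, v.2] using h v.1 v.2
  · simp [glue, hv, h]

theorem lift_eq (X : Finset (Site L)) (m : Matrix (RConfig X q) (RConfig X q) ℂ) :
    lift X m = (Matrix.kroneckerMap (· * ·) m (1 : Matrix _ _ ℂ)).submatrix (split X) (split X) := by
  ext σ τ
  conv_lhs => rw [← glue_res X σ, ← glue_res X τ, lift_glue]
  simp [split, Matrix.one_apply]

theorem lift_mul (X : Finset (Site L)) (m n : Matrix (RConfig X q) (RConfig X q) ℂ) :
    lift X (m * n) = lift X m * lift X n := by
  rw [lift_eq, lift_eq, lift_eq, Matrix.submatrix_mul_equiv, ← Matrix.mul_kronecker_mul, one_mul]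

theorem lift_one (X : Finset (Site L)) : lift (q := q) X 1 = 1 := by
  rw [lift_eq, Matrix.one_kronecker_one, Matrix.submatrix_one_equiv]

theorem lift_conjTranspose (X : Finset (Site L)) (m : Matrix (RConfig X q) (RConfig X q) ℂ) :
    (lift X m)ᴴ = lift X mᴴ := by
  rw [lift_eq, lift_eq, Matrix.conjTranspose_submatrix, Matrix.conjTranspose_kronecker,
    Matrix.conjTranspose_one]

theorem lift_trace (X : Finset (Site L)) (m : Matrix (RConfig X q) (RConfig X q) ℂ) :
    (lift X m).trace = m.trace * Fintype.card ({v // v ∉ X} → Fin q) := by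
  simp only [Matrix.trace, Matrix.diag]
  rw [sum_config X, Finset.sum_mul]
  refine Finset.sum_congr rfl fun a _ => ?_
  simp [lift_glue, mul_comm]

theorem lift_injective (hq : 0 < q) (X : Finset (Site L)) :
    Function.Injective (lift (q := q) X) := by
  intro m n h
  ext a b
  let c : {v // v ∉ X} → Fin q := fun _ => ⟨0, hq⟩
  have := congrFun (congrFun h (glue X a c)) (glue X b c)
  simpa [lift_glue] using this

theorem lift_sum {ι : Type*} (X : Finset (Site L)) (s : Finset ι)
    (m : ι → Matrix (RConfig X q) (RConfig X q) ℂ) :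
    lift X (∑ i ∈ s, m i) = ∑ i ∈ s, lift X (m i) := by
  ext σ τ
  simp only [lift, Matrix.of_apply, Matrix.sum_apply]
  split_ifs <;> simp

theorem lift_sub (X : Finset (Site L)) (m n : Matrix (RConfig X q) (RConfig X q) ℂ) :
    lift X (m - n) = lift X m - lift X n := by
  ext σ τ
  simp only [lift, Matrix.of_apply, Matrix.sub_apply]
  split_ifs <;> simp

/-- An operator of a subregion as an operator of the region. -/
def liftIn {B A : Finset (Site L)} (h : B ⊆ A) (m : Matrix (RConfig B q) (RConfig B q) ℂ) :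
    Matrix (RConfig A q) (RConfig A q) ℂ :=
  Matrix.of fun a b => if ∀ v : A, (v : Site L) ∉ B → a v = b v then
    m (fun v => a ⟨v, h v.2⟩) (fun v => b ⟨v, h v.2⟩) else 0

theorem lift_liftIn {B A : Finset (Site L)} (h : B ⊆ A)
    (m : Matrix (RConfig B q) (RConfig B q) ℂ) : lift A (liftIn h m) = lift B m := by
  ext σ τ
  simp only [lift, liftIn, Matrix.of_apply]
  by_cases h1 : ∀ v, v ∉ B → σ v = τ v
  · rw [if_pos h1, if_pos fun v hv => h1 v fun hB => hv (h hB),
      if_pos (show ∀ v : A, (v : Site L) ∉ B → res A σ v = res A τ v from fun v hv => h1 v hv)]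
    rfl
  · rw [if_neg h1]
    by_cases h2 : ∀ v, v ∉ A → σ v = τ v
    · rw [if_pos h2, if_neg fun h3 => h1 fun v hv => ?_]
      by_cases hA : v ∈ A
      · exact h3 ⟨v, hA⟩ hv
      · exact h2 v hA
    · rw [if_neg h2]

theorem lift_commute {X Y : Finset (Site L)} (hd : Disjoint X Y)
    (m : Matrix (RConfig X q) (RConfig X q) ℂ) (n : Matrix (RConfig Y q) (RConfig Y q) ℂ) :
    lift X m * lift Y n = lift Y n * lift X m := by
  classical
  ext σ τ
  let mid (X : Finset (Site L)) : Config L q := fun v => if v ∈ X then τ v else σ v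
  have single : ∀ (X Y : Finset (Site L)), Disjoint X Y →
      ∀ (m : Matrix (RConfig X q) (RConfig X q) ℂ) (n : Matrix (RConfig Y q) (RConfig Y q) ℂ),
      (lift X m * lift Y n) σ τ = if ∀ v, v ∉ X → v ∉ Y → σ v = τ v then
        m (res X σ) (res X τ) * n (res Y σ) (res Y τ) else 0 := by
    intro X Y hd m n
    rw [Matrix.mul_apply, Finset.sum_eq_single (mid X)]
    · have eX : res X (mid X) = res X τ := funext fun v => by simp [res, mid, v.2]
      have eY : res Y (mid X) = res Y σ := funext fun v => by
        simp [res, mid, Finset.disjoint_right.1 hd v.2]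
      simp only [lift, Matrix.of_apply, eX, eY]
      rw [if_pos fun v hv => by simp [mid, hv]]
      by_cases hc : ∀ v, v ∉ X → v ∉ Y → σ v = τ v
      · rw [if_pos hc, if_pos fun v hv => ?_]
        by_cases hX : v ∈ X
        · simp [mid, hX]
        · simp [mid, hX, hc v hX hv]
      · rw [if_neg hc, if_neg fun h => hc fun v hX hY => by simpa [mid, hX] using h v hY, mul_zero]
    · intro ρ _ hρ
      simp only [lift, Matrix.of_apply]
      by_cases h1 : ∀ v, v ∉ X → σ v = ρ v
      · by_cases h2 : ∀ v, v ∉ Y → ρ v = τ v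
        · refine absurd (funext fun v => ?_) hρ
          by_cases hX : v ∈ X
          · simp [mid, hX, h2 v (Finset.disjoint_left.1 hd hX)]
          · simp [mid, hX, h1 v hX]
        · rw [if_neg h2, mul_zero]
      · rw [if_neg h1, zero_mul]
    · intro h
      exact absurd (Finset.mem_univ _) h
  rw [single X Y hd, single Y X hd.symm]
  refine if_congr ⟨fun h v a b => h v b a, fun h v a b => h v b a⟩ (mul_comm _ _) rfl

theorem lift_mulVec_glue (X : Finset (Site L)) (m : Matrix (RConfig X q) (RConfig X q) ℂ)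
    (ψ : Config L q → ℂ) (a : RConfig X q) (c : {v // v ∉ X} → Fin q) :
    (lift X m *ᵥ ψ) (glue X a c) = ∑ b, m a b * ψ (glue X b c) := by
  simp only [Matrix.mulVec, dotProduct]
  rw [sum_config X]
  refine Finset.sum_congr rfl fun b _ => ?_
  simp [lift_glue]

theorem coeffMat_lift (X : Finset (Site L)) (m : Matrix (RConfig X q) (RConfig X q) ℂ)
    (ψ : Config L q → ℂ) : coeffMat X (lift X m *ᵥ ψ) = m * coeffMat X ψ := by
  ext a c
  simp [coeffMat, lift_mulVec_glue, Matrix.mul_apply]

theorem rdm_lift (X : Finset (Site L)) (m : Matrix (RConfig X q) (RConfig X q) ℂ)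
    (ψ : Config L q → ℂ) : rdm X (lift X m *ᵥ ψ) = m * rdm X ψ * mᴴ := by
  rw [rdm, rdm, coeffMat_lift, Matrix.conjTranspose_mul]
  simp only [Matrix.mul_assoc]

theorem expect_lift (X : Finset (Site L)) (k : Matrix (RConfig X q) (RConfig X q) ℂ)
    (ψ : Config L q → ℂ) : star ψ ⬝ᵥ (lift X k *ᵥ ψ) = (k * rdm X ψ).trace := by
  simp only [dotProduct, Pi.star_apply, Matrix.trace, Matrix.diag, rdm, Matrix.mul_apply,
    Matrix.conjTranspose_apply, coeffMat, Matrix.of_apply, Finset.mul_sum]
  rw [sum_config X]
  refine Finset.sum_congr rfl fun a _ => ?_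
  simp only [lift_mulVec_glue, Finset.mul_sum]
  rw [Finset.sum_comm]
  refine Finset.sum_congr rfl fun b _ => Finset.sum_congr rfl fun c _ => ?_
  ring

theorem rdm_lift_disjoint {X Y : Finset (Site L)} (hd : Disjoint X Y)
    (m : Matrix (RConfig X q) (RConfig X q) ℂ) (hm : mᴴ * m = 1) (ψ : Config L q → ℂ) :
    rdm Y (lift X m *ᵥ ψ) = rdm Y ψ := by
  classical
  refine Matrix.ext_iff_trace_mul_left.2 fun k => ?_
  rw [← expect_lift, ← expect_lift, Matrix.star_mulVec, ← Matrix.dotProduct_mulVec,
    Matrix.mulVec_mulVec, Matrix.mulVec_mulVec, lift_conjTranspose, mul_assoc,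
    ← lift_commute hd, ← mul_assoc, ← lift_mul, hm, lift_one, one_mul]

theorem rdm_posSemidef (X : Finset (Site L)) (ψ : Config L q → ℂ) : (rdm X ψ).PosSemidef :=
  Matrix.posSemidef_self_mul_conjTranspose _

theorem rdm_trace (X : Finset (Site L)) (ψ : Config L q → ℂ) :
    (rdm X ψ).trace = (nsq ψ : ℂ) := by
  have h := expect_lift X 1 ψ
  rw [lift_one, Matrix.one_mulVec, one_mul] at h
  rw [← h, nsq, dotProduct, Complex.ofReal_sum]
  refine Finset.sum_congr rfl fun σ _ => ?_
  rw [Complex.normSq_eq_conj_mul_self]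
  rfl

theorem rdm_diag (X : Finset (Site L)) (ψ : Config L q → ℂ) (a : RConfig X q) :
    (rdm X ψ a a).re = ∑ c, Complex.normSq (ψ (glue X a c)) := by
  simp [rdm, Matrix.mul_apply, coeffMat, Complex.mul_conj, Complex.re_sum]

end Vale.Agent.P356
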