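import Vale.Agent.P356.Gap

/-!
# P356: packing balls into a region
-/

noncomputable section

namespace Vale.Agent.P356

variable {L q : ℕ}

theorem l1_comm (x y : Site L) : l1 x y = l1 y x := by simp [l1, Nat.dist_comm]

theorem l1_triangle (x y z : Site L) : l1 x z ≤ l1 x y + l1 y z := by
  simp only [l1, Nat.dist]
  omega

theorem card_ball_le (R : ℕ) (x : Site L) : (ball R x).card ≤ (2 * R + 1) ^ 2 := by
  have h := Finset.card_le_card_of_injOn
    (fun y : Site L => ((y.1 : ℕ) + R - (x.1 : ℕ), (y.2 : ℕ) + R - (x.2 : ℕ)))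
    (s := ball R x) (t := Finset.range (2 * R + 1) ×ˢ Finset.range (2 * R + 1))
    (fun y hy => by
      replace hy : l1 x y ≤ R := (Finset.mem_filter.1 hy).2
      simp only [l1, Nat.dist] at hy
      simp only [Finset.coe_product, Finset.coe_range, Set.mem_prod, Set.mem_Iio]
      omega)
    (fun y hy z hz e => by
      replace hy : l1 x y ≤ R := (Finset.mem_filter.1 hy).2
      replace hz : l1 x z ≤ R := (Finset.mem_filter.1 hz).2
      simp only [l1, Nat.dist] at hy hz
      simp only [Prod.mk.injEq] at e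
      refine Prod.ext (Fin.ext ?_) (Fin.ext ?_) <;> omega)
  simpa [sq] using h

/-- A site from which one can leave a region within `R` steps is within `R` of a boundary edge. -/
theorem exists_edge (A : Finset (Site L)) {x : Site L} (hx : x ∈ A) :
    ∀ (k : ℕ) (y : Site L), y ∉ A → l1 x y ≤ k →
      ∃ p ∈ (A ×ˢ Aᶜ).filter (fun p => l1 p.1 p.2 = 1), l1 x p.1 ≤ k := by
  intro k
  induction k with
  | zero =>
    intro y hy hk
    refine absurd ?_ hy
    have : x = y := by
      simp only [l1, Nat.dist] at hk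
      refine Prod.ext (Fin.ext ?_) (Fin.ext ?_) <;> omega
    rwa [← this]
  | succ k ih =>
    intro y hy hk
    rcases Nat.le_or_eq_of_le_succ hk with hk | hk
    · obtain ⟨p, hp, hd⟩ := ih y hy hk
      exact ⟨p, hp, hd.trans k.le_succ⟩
    have h1 := x.1.2
    have h2 := x.2.2
    have h3 := y.1.2
    have h4 := y.2.2
    obtain ⟨y', hy1, hy2⟩ : ∃ y' : Site L, l1 x y' = k ∧ l1 y' y = 1 := by
      simp only [l1, Nat.dist] at hk
      rcases lt_trichotomy (y.1 : ℕ) (x.1 : ℕ) with h | h | h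
      · refine ⟨(⟨y.1 + 1, by omega⟩, y.2), ?_, ?_⟩ <;> simp only [l1, Nat.dist] <;> omega
      · rcases lt_trichotomy (y.2 : ℕ) (x.2 : ℕ) with g | g | g
        · refine ⟨(y.1, ⟨y.2 + 1, by omega⟩), ?_, ?_⟩ <;> simp only [l1, Nat.dist] <;> omega
        · omega
        · refine ⟨(y.1, ⟨y.2 - 1, by omega⟩), ?_, ?_⟩ <;> simp only [l1, Nat.dist] <;> omega
      · refine ⟨(⟨y.1 - 1, by omega⟩, y.2), ?_, ?_⟩ <;> simp only [l1, Nat.dist] <;> omega
    by_cases hA : y' ∈ A
    · exact ⟨(y', y), by simp [hA, hy, hy2], show l1 x y' ≤ k + 1 by omega⟩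
    · obtain ⟨p, hp, hd⟩ := ih y' hA hy1.le
      exact ⟨p, hp, hd.trans k.le_succ⟩

/-- Disjoint balls inside a region, as many as its bulk allows. -/
theorem exists_packing (R : ℕ) (A : Finset (Site L)) :
    ∃ P : Finset (Site L), (∀ p ∈ P, ball R p ⊆ A) ∧
      (∀ p ∈ P, ∀ p' ∈ P, p ≠ p' → Disjoint (ball R p) (ball R p')) ∧
      A.card ≤ (2 * R + 1) ^ 2 * edgeBoundary A + (4 * R + 1) ^ 2 * P.card := by
  classical
  set I := A.filter fun x => ball R x ⊆ A
  set Fam := I.powerset.filter fun P : Finset (Site L) =>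
    ∀ p ∈ P, ∀ p' ∈ P, p ≠ p' → 2 * R < l1 p p'
  obtain ⟨P, hP, hmax⟩ := Finset.exists_max_image Fam Finset.card ⟨∅, by simp [Fam]⟩
  obtain ⟨hPI, hfar⟩ := Finset.mem_filter.1 hP
  rw [Finset.mem_powerset] at hPI
  refine ⟨P, fun p hp => (Finset.mem_filter.1 (hPI hp)).2, fun p hp p' hp' hne => ?_, ?_⟩
  · rw [Finset.disjoint_left]
    intro z hz hz'
    simp only [ball, Finset.mem_filter, Finset.mem_univ, true_and] at hz hz'
    have := l1_triangle p z p'
    rw [l1_comm z p'] at this
    have := hfar p hp p' hp' hne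
    omega
  have hI : I ⊆ P.biUnion fun p => ball (2 * R) p := by
    intro x hx
    by_contra hn
    simp only [Finset.mem_biUnion, ball, Finset.mem_filter, Finset.mem_univ, true_and, not_exists,
      not_and, not_le] at hn
    have hxP : x ∉ P := fun hxP => absurd (hn x hxP) (by simp [l1])
    have := hmax (insert x P) (Finset.mem_filter.2 ⟨Finset.mem_powerset.2
      (Finset.insert_subset hx hPI), fun p hp p' hp' hne => by
        rcases Finset.mem_insert.1 hp with e | hq' <;> rcases Finset.mem_insert.1 hp' with e' | hq''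
        · exact absurd (e.trans e'.symm) hne
        · rw [e, l1_comm]; exact hn p' hq''
        · rw [e']; exact hn p hq'
        · exact hfar p hq' p' hq'' hne⟩)
    rw [Finset.card_insert_of_notMem hxP] at this
    omega
  set E := (A ×ˢ Aᶜ).filter fun p => l1 p.1 p.2 = 1
  have hO : A \ I ⊆ E.biUnion fun p => ball R p.1 := by
    intro x hx
    obtain ⟨hxA, hxI⟩ := Finset.mem_sdiff.1 hx
    obtain ⟨y, hyB, hyA⟩ : ∃ y, y ∈ ball R x ∧ y ∉ A := by
      by_contra hc
      push Not at hc
      exact hxI (Finset.mem_filter.2 ⟨hxA, hc⟩)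
    simp only [ball, Finset.mem_filter, Finset.mem_univ, true_and] at hyB
    obtain ⟨p, hp, hd⟩ := exists_edge A hxA R y hyA hyB
    refine Finset.mem_biUnion.2 ⟨p, hp, ?_⟩
    simpa [ball, l1_comm p.1 x] using hd
  have c1 : (A \ I).card ≤ E.card * (2 * R + 1) ^ 2 := (Finset.card_le_card hO).trans
    (Finset.card_biUnion_le_card_mul _ _ _ fun p _ => card_ball_le R p.1)
  have c2 : I.card ≤ P.card * (2 * (2 * R) + 1) ^ 2 := (Finset.card_le_card hI).trans
    (Finset.card_biUnion_le_card_mul _ _ _ fun p _ => card_ball_le (2 * R) p)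
  have c3 := Finset.card_sdiff_add_card_eq_card (show I ⊆ A from Finset.filter_subset _ A)
  calc A.card = (A \ I).card + I.card := c3.symm
    _ ≤ E.card * (2 * R + 1) ^ 2 + P.card * (2 * (2 * R) + 1) ^ 2 := add_le_add c1 c2
    _ = _ := by simp only [edgeBoundary, E]; ring

/-- Gapped ground states on the square never reach the maximal volume law. -/
theorem volume_defect (q R : ℕ) (hq : 2 ≤ q) (J Δ : ℝ) (hJ : 0 < J) (hΔ : 0 < Δ) :
    ∃ θ C : ℝ, 0 ≤ θ ∧ θ < 1 ∧ 0 ≤ C ∧
      ∀ (L : ℕ) (h : Finset (Site L) → Matrix (Config L q) (Config L q) ℂ)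
        (Ω : Config L q → ℂ), Admissible R J h → HasGap (∑ X, h X) Ω Δ →
        ∀ A : Finset (Site L),
          entropy Ω A ≤ θ * (A.card * Real.log q) + C * edgeBoundary A := by
  have hq1 : (1 : ℝ) < q := by exact_mod_cast hq
  have hlog : 0 < Real.log q := Real.log_pos hq1
  set M := (2 * R + 1) ^ 2 with hM
  set M2 : ℝ := (((4 * R + 1) ^ 2 : ℕ) : ℝ) with hM2
  have hM2p : 0 < M2 := by rw [hM2]; positivity
  set ε := Δ ^ 2 / (4 * (q : ℝ) ^ M * (2 * J * (2 : ℝ) ^ M) ^ 2) with hε
  have hεp : 0 < ε := by positivity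
  refine ⟨max 0 (1 - ε / (M2 * Real.log q)), ε * M / M2, le_max_left _ _,
    max_lt one_pos (sub_lt_self _ (by positivity)), by positivity, ?_⟩
  intro L h Ω hA hg A
  obtain ⟨P, hsub, hdis, hcard⟩ := exists_packing R A
  have h1 := entropy_le_blocks (by omega : 0 < q) hg.1 P (fun p => ball R p) A hsub hdis
  have h2 : ∀ p ∈ P, entropy Ω (ball R p) ≤ ((ball R p).card : ℝ) * Real.log q - ε := by
    intro p _
    refine (ball_defect hq hJ hΔ hA hg p).trans (sub_le_sub_left ?_ _)
    rw [hε]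
    gcongr
    · exact hq1.le
    · exact card_ball_le R p
    · exact one_le_two
    · exact card_ball_le R p
  have h3 := Finset.sum_le_sum h2
  rw [Finset.sum_sub_distrib, ← Finset.sum_mul, Finset.sum_const, nsmul_eq_mul] at h3
  have h4 : (A.card : ℝ) ≤ M * edgeBoundary A + M2 * P.card := by
    rw [hM2, hM]
    exact_mod_cast hcard
  have h5 : ε * ((A.card : ℝ) - M * edgeBoundary A) / M2 ≤ P.card * ε := by
    rw [div_le_iff₀ hM2p]
    have := mul_le_mul_of_nonneg_left h4 hεp.le
    linarith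
  have h6 : (1 - ε / (M2 * Real.log q)) * (A.card * Real.log q) ≤
      max 0 (1 - ε / (M2 * Real.log q)) * (A.card * Real.log q) :=
    mul_le_mul_of_nonneg_right (le_max_right _ _) (mul_nonneg (Nat.cast_nonneg _) hlog.le)
  have h7 : (1 - ε / (M2 * Real.log q)) * (A.card * Real.log q) + ε * M / M2 * edgeBoundary A =
      A.card * Real.log q - ε * ((A.card : ℝ) - M * edgeBoundary A) / M2 := by
    field_simp
    ring
  linarith

end Vale.Agent.P356
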